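import Vale.Agent.P034.StrongTree
import Vale.Agent.P034.StrongAnd
import Vale.Agent.P034.StrongOr
import Vale.Agent.P034.Copies

/-!
Integral versus fractional expectation thresholds: Talagrand's conjecture for compositions of
families generated by tree-like families.
-/

namespace Vale.Agent.Results.P034.Composition

open Finset

section

variable {X : Type} [Fintype X] [DecidableEq X]

/-- `F` is a nonempty proper increasing family: nonempty, closed under supersets, `∅ ∉ F`. -/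
def IsIncreasingFamily (F : Set (Finset X)) : Prop :=
  F.Nonempty ∧ ∅ ∉ F ∧ ∀ H ∈ F, ∀ H', H ⊆ H' → H' ∈ F

/-- `F` is `p`-small: some family `G` covers `F` and has cost at most `1/2` at `p`. -/
def IsSmall (p : ℝ) (F : Set (Finset X)) : Prop :=
  ∃ G : Finset (Finset X), (∀ H ∈ F, ∃ S ∈ G, S ⊆ H) ∧ ∑ S ∈ G, p ^ S.card ≤ 1 / 2

/-- `g : 2^X → [0,1]` is a fractional cover of `F`. -/
def IsFractionalCover (g : Finset X → ℝ) (F : Set (Finset X)) : Prop :=
  (∀ S, 0 ≤ g S ∧ g S ≤ 1) ∧ ∀ H ∈ F, 1 ≤ ∑ S ∈ H.powerset, g S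

/-- The cost `w(g,p)` of a fractional cover at `p`. -/
noncomputable def cost (g : Finset X → ℝ) (p : ℝ) : ℝ := ∑ S : Finset X, g S * p ^ S.card

/-- The integral expectation threshold `q(F)`. -/
noncomputable def q (F : Set (Finset X)) : ℝ := sSup {p : ℝ | 0 ≤ p ∧ p ≤ 1 ∧ IsSmall p F}

/-- The fractional expectation threshold `q_f(F)`. -/
noncomputable def qf (F : Set (Finset X)) : ℝ :=
  sSup {p : ℝ | 0 ≤ p ∧ p ≤ 1 ∧ ∃ g, IsFractionalCover g F ∧ cost g p ≤ 1 / 2}

/-- A family of sets is tree-like if the traces of its members on each member form a chain. -/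
def TreeLike (T : Set (Finset X)) : Prop :=
  ∀ A ∈ T, ∀ B ∈ T, ∀ C ∈ T, A ∩ B ⊆ C ∨ A ∩ C ⊆ B

/-- The increasing family generated by `T`. -/
def upClosure (T : Set (Finset X)) : Set (Finset X) := {H | ∃ A ∈ T, A ⊆ H}

/-- The families on the ground set `U` obtained from families generated by tree-like families by
unions (OR) and intersections (AND) of families on disjoint ground sets. -/
inductive Composed : Finset X → Set (Finset X) → Prop
  | tree (U : Finset X) (T : Set (Finset X)) :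
      TreeLike T → (∀ A ∈ T, A ⊆ U) → Composed U (upClosure T)
  | or (U V : Finset X) (F G : Set (Finset X)) :
      Disjoint U V → Composed U F → Composed V G → Composed (U ∪ V) (F ∪ G)
  | and (U V : Finset X) (F G : Set (Finset X)) :
      Disjoint U V → Composed U F → Composed V G → Composed (U ∪ V) (F ∩ G)

/-- The families given by read-once monotone Boolean formulas. -/
inductive ReadOnceFamily : Finset X → Set (Finset X) → Prop
  | var (x : X) : ReadOnceFamily {x} {H | x ∈ H}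
  | or (U V : Finset X) (F G : Set (Finset X)) :
      Disjoint U V → ReadOnceFamily U F → ReadOnceFamily V G → ReadOnceFamily (U ∪ V) (F ∪ G)
  | and (U V : Finset X) (F G : Set (Finset X)) :
      Disjoint U V → ReadOnceFamily U F → ReadOnceFamily V G → ReadOnceFamily (U ∪ V) (F ∩ G)

/-- Strong comparison with constant `K` for a family `F` on the ground set `U`: `F` depends only on
`U`, and for every `p` in `[0,1]` some cover of `F` by subsets of `U` has cost at `p/K` at most the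
cost at `p` of every nonnegative fractional cover of `F`. -/
def StrongComparison (K : ℝ) (U : Finset X) (F : Set (Finset X)) : Prop :=
  (∀ H, H ∈ F ↔ H ∩ U ∈ F) ∧ ∀ p : ℝ, 0 ≤ p → p ≤ 1 →
    ∃ G : Finset (Finset X), (∀ S ∈ G, S ⊆ U) ∧ (∀ H ∈ F, ∃ S ∈ G, S ⊆ H) ∧
      ∀ g : Finset X → ℝ, (∀ S, 0 ≤ g S) → (∀ H ∈ F, 1 ≤ ∑ S ∈ H.powerset, g S) →
        ∑ S ∈ G, (p / K) ^ S.card ≤ cost g p

lemma sc_iff {K : ℝ} {U : Finset X} {F : Set (Finset X)} :
    StrongComparison K U F ↔ Vale.Agent.P034.Strong K U F := by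
  constructor
  · rintro ⟨h1, h2⟩
    refine ⟨h1, fun p hp hp1 => ?_⟩
    obtain ⟨G, hG1, hG2, hG3⟩ := h2 p hp hp1
    exact ⟨G, hG1, hG2, fun g hg => hG3 g hg.1 hg.2⟩
  · rintro ⟨h1, h2⟩
    refine ⟨h1, fun p hp hp1 => ?_⟩
    obtain ⟨G, hG1, hG2, hG3⟩ := h2 p hp hp1
    exact ⟨G, hG1, hG2, fun g hg0 hg => hG3 g ⟨hg0, hg⟩⟩

lemma composed_strong {U : Finset X} {F : Set (Finset X)} (h : Composed U F) :
    StrongComparison 4104 U F := by
  rw [sc_iff]
  induction h with
  | tree U T hT hU =>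
    exact Vale.Agent.P034.strong_tree (fun A hA B hB C hC => hT A hA B hB C hC) hU
  | or U V F G hd _ _ hF hG => exact hF.or (by norm_num) hd hG
  | and U V F G hd _ _ hF hG => exact hF.and (by norm_num) hd hG

lemma readOnce_strong {U : Finset X} {F : Set (Finset X)} (h : ReadOnceFamily U F) :
    StrongComparison 1 U F := by
  rw [sc_iff]
  induction h with
  | var x =>
    refine ⟨fun H => by simp, fun p hp hp1 => ⟨{{x}}, ?_, ?_, ?_⟩⟩
    · intro S hS
      rw [mem_singleton] at hS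
      rw [hS]
    · intro H hH
      exact ⟨{x}, mem_singleton_self _, singleton_subset_iff.2 hH⟩
    · rintro g ⟨hg0, hg⟩
      rw [sum_singleton, card_singleton, pow_one, div_one]
      have h1 := hg {x} (mem_singleton_self x)
      have e : ({x} : Finset X).powerset = {∅, {x}} := by
        ext S
        simp [subset_singleton_iff]
      have hne : (∅ : Finset X) ≠ {x} := (singleton_ne_empty x).symm
      rw [e, sum_pair hne] at h1
      have h2 : ∑ S ∈ ({∅, {x}} : Finset (Finset X)), g S * p ^ S.card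
          ≤ ∑ S : Finset X, g S * p ^ S.card :=
        sum_le_sum_of_subset_of_nonneg (subset_univ _)
          (fun S _ _ => mul_nonneg (hg0 S) (pow_nonneg hp _))
      rw [sum_pair hne, card_empty, pow_zero, mul_one, card_singleton, pow_one] at h2
      nlinarith [hg0 ∅, hg0 {x}]
  | or U V F G hd _ _ hF hG => exact hF.or le_rfl hd hG
  | and U V F G hd _ _ hF hG => exact hF.and le_rfl hd hG

lemma q_le_qf {F : Set (Finset X)} : q F ≤ qf F := by
  classical
  have hb : BddAbove {p : ℝ | 0 ≤ p ∧ p ≤ 1 ∧ ∃ g, IsFractionalCover g F ∧ cost g p ≤ 1 / 2} :=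
    ⟨1, fun r hr => hr.2.1⟩
  have hsub : {p : ℝ | 0 ≤ p ∧ p ≤ 1 ∧ IsSmall p F} ⊆
      {p : ℝ | 0 ≤ p ∧ p ≤ 1 ∧ ∃ g, IsFractionalCover g F ∧ cost g p ≤ 1 / 2} := by
    rintro p ⟨hp, hp1, G, hG, hGc⟩
    refine ⟨hp, hp1, fun S => if S ∈ G then 1 else 0, ⟨fun S => ?_, fun H hH => ?_⟩, ?_⟩
    · beta_reduce
      split_ifs
      · exact ⟨zero_le_one, le_rfl⟩
      · exact ⟨le_rfl, zero_le_one⟩
    · obtain ⟨S, hS, hSH⟩ := hG H hH
      have h2 := single_le_sum (f := fun S : Finset X => if S ∈ G then (1 : ℝ) else 0)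
        (s := H.powerset) (fun S _ => by split_ifs <;> norm_num) (mem_powerset.2 hSH)
      simp only [if_pos hS] at h2
      exact h2
    · refine le_trans (le_of_eq ?_) hGc
      unfold cost
      simp [ite_mul, sum_ite_mem]
  by_cases hne : {p : ℝ | 0 ≤ p ∧ p ≤ 1 ∧ IsSmall p F}.Nonempty
  · exact csSup_le_csSup hb hne hsub
  · unfold q
    rw [Set.not_nonempty_iff_eq_empty.1 hne, Real.sSup_empty]
    exact Real.sSup_nonneg (fun x hx => hx.1)

lemma qf_le {F : Set (Finset X)} (hF : IsIncreasingFamily F) {K : ℝ} (hK1 : 1 ≤ K)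
    (hsmall : ∀ p : ℝ, 0 ≤ p → p ≤ 1 → (∃ g, IsFractionalCover g F ∧ cost g p ≤ 1 / 2) →
      IsSmall (p / K) F) : qf F ≤ K * q F := by
  have hK0 : (0 : ℝ) < K := by linarith
  have hb : BddAbove {p : ℝ | 0 ≤ p ∧ p ≤ 1 ∧ IsSmall p F} := ⟨1, fun r hr => hr.2.1⟩
  unfold qf
  refine csSup_le ⟨0, le_rfl, zero_le_one, fun S => if S.card = 0 then 0 else 1, ?_, ?_⟩ ?_
  · refine ⟨fun S => ?_, fun H hH => ?_⟩
    · beta_reduce
      split_ifs
      · exact ⟨le_rfl, zero_le_one⟩
      · exact ⟨zero_le_one, le_rfl⟩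
    · have hHn : H.card ≠ 0 := by
        intro h0
        rw [card_eq_zero] at h0
        rw [h0] at hH
        exact hF.2.1 hH
      have h2 := single_le_sum (f := fun S : Finset X => if S.card = 0 then (0 : ℝ) else 1)
        (s := H.powerset) (fun S _ => by split_ifs <;> norm_num) (mem_powerset_self H)
      simp only [if_neg hHn] at h2
      exact h2
  · unfold cost
    rw [sum_eq_zero]
    · norm_num
    · intro S _
      beta_reduce
      by_cases h : S.card = 0
      · rw [if_pos h, zero_mul]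
      · rw [zero_pow h, mul_zero]
  · rintro p ⟨hp, hp1, hg⟩
    have hs := hsmall p hp hp1 hg
    have hmem : p / K ∈ {p : ℝ | 0 ≤ p ∧ p ≤ 1 ∧ IsSmall p F} :=
      ⟨by positivity, (div_le_one hK0).2 (hp1.trans hK1), hs⟩
    have h := le_csSup hb hmem
    rw [div_le_iff₀ hK0, mul_comm] at h
    exact h

lemma union_cost {m : ℕ} (hm : 1 ≤ m) {p K : ℝ} (hp : 0 ≤ p) (hK : 1 ≤ K)
    (G : Fin m → Finset (Finset X)) (hGc : ∀ j, ∑ S ∈ G j, (p / K) ^ S.card ≤ 1 / 2) :
    ∑ S ∈ univ.biUnion G, (p / (K * m)) ^ S.card ≤ 1 / 2 := by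
  classical
  have hmr : (1 : ℝ) ≤ m := by exact_mod_cast hm
  have hm0 : (0 : ℝ) < m := by linarith
  have hK0 : (0 : ℝ) < K := by linarith
  have hne : ∀ j, ∀ S ∈ G j, 1 ≤ S.card := by
    intro j S hS
    by_contra h
    have h0 : S.card = 0 := by omega
    have h1 : (p / K) ^ S.card ≤ ∑ S ∈ G j, (p / K) ^ S.card :=
      single_le_sum (f := fun S => (p / K) ^ S.card) (fun S _ => by positivity) hS
    rw [h0, pow_zero] at h1
    linarith [hGc j]
  have hpt : ∀ j, ∀ S ∈ G j, (p / (K * m)) ^ S.card ≤ (1 / m) * (p / K) ^ S.card := by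
    intro j S hS
    have e : p / (K * (m : ℝ)) = (1 / m) * (p / K) := by
      field_simp
    rw [e, mul_pow]
    gcongr
    have h1m : (1 / (m : ℝ)) ≤ 1 := by
      rw [div_le_one hm0]; exact hmr
    calc (1 / (m : ℝ)) ^ S.card ≤ (1 / (m : ℝ)) ^ 1 :=
          pow_le_pow_of_le_one (by positivity) h1m (hne j S hS)
      _ = 1 / m := pow_one _
  calc ∑ S ∈ univ.biUnion G, (p / (K * m)) ^ S.card
      ≤ ∑ j : Fin m, ∑ S ∈ G j, (p / (K * m)) ^ S.card := by
        have e1 : ∀ j : Fin m, ∑ S ∈ G j, (p / (K * m)) ^ S.card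
            = ∑ S ∈ univ.biUnion G, if S ∈ G j then (p / (K * m)) ^ S.card else 0 := by
          intro j
          rw [← sum_filter]
          refine sum_congr ?_ (fun _ _ => rfl)
          ext S
          simp only [mem_filter, mem_biUnion, mem_univ, true_and]
          exact ⟨fun h => ⟨⟨j, h⟩, h⟩, fun h => h.2⟩
        simp_rw [e1]
        rw [sum_comm]
        refine sum_le_sum (fun S hS => ?_)
        obtain ⟨j, _, hj⟩ := mem_biUnion.1 hS
        have h2 := single_le_sum
          (f := fun j => if S ∈ G j then (p / (K * (m : ℝ))) ^ S.card else 0)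
          (s := (univ : Finset (Fin m)))
          (fun i _ => by split_ifs <;> positivity) (mem_univ j)
        simpa [hj] using h2
    _ ≤ ∑ j : Fin m, ∑ S ∈ G j, (1 / m) * (p / K) ^ S.card :=
        sum_le_sum (fun j _ => sum_le_sum (fun S hS => hpt j S hS))
    _ ≤ ∑ _j : Fin m, (1 / m) * (1 / 2 : ℝ) := by
        refine sum_le_sum (fun j _ => ?_)
        rw [← mul_sum]
        gcongr
        exact hGc j
    _ = 1 / 2 := by
        rw [sum_const, card_univ, Fintype.card_fin, nsmul_eq_mul]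
        field_simp

lemma zero_cover {F : Set (Finset X)} (hE : ∅ ∉ F) :
    ∃ G : Finset (Finset X), (∀ H ∈ F, ∃ S ∈ G, S ⊆ H) ∧ ∑ S ∈ G, (0 : ℝ) ^ S.card = 0 := by
  classical
  refine ⟨univ.erase ∅, fun H hH => ⟨H, ?_, Subset.rfl⟩, ?_⟩
  · rw [mem_erase]
    exact ⟨fun h => hE (h ▸ hH), mem_univ _⟩
  · refine sum_eq_zero (fun S hS => ?_)
    exact zero_pow (card_ne_zero.2 (nonempty_iff_ne_empty.2 (ne_of_mem_erase hS)))

lemma all_levels {K : ℝ} (hK : 1 ≤ K)
    (hQ : ∀ (X : Type) [Fintype X] [DecidableEq X] (F : Set (Finset X)), IsIncreasingFamily F →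
      qf F ≤ K * q F) {F : Set (Finset X)} (hF : IsIncreasingFamily F) {g : Finset X → ℝ} {p : ℝ}
    (hp : 0 ≤ p) (hp1 : p ≤ 1) (hg : IsFractionalCover g F) (hgE : g ∅ = 0)
    (hc0 : 0 < cost g p) (hc : cost g p ≤ 1 / 2) :
    ∃ G : Finset (Finset X), (∀ H ∈ F, ∃ S ∈ G, S ⊆ H) ∧
      ∑ S ∈ G, (p / (2 * K)) ^ S.card ≤ 2 * cost g p := by
  classical
  obtain ⟨N, hNdef⟩ : ∃ N : ℕ, N = ⌊1 / (2 * cost g p)⌋₊ := ⟨_, rfl⟩
  have h2c : (0 : ℝ) < 2 * cost g p := by linarith
  have h1 : (1 : ℝ) ≤ 1 / (2 * cost g p) := by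
    rw [one_le_div h2c]
    linarith
  have hN1 : 1 ≤ N := by
    rw [hNdef]
    exact Nat.le_floor (by simpa using h1)
  have hNle : (N : ℝ) ≤ 1 / (2 * cost g p) := by
    rw [hNdef]
    exact Nat.floor_le (by linarith)
  have hNlt : 1 / (2 * cost g p) < N + 1 := by
    rw [hNdef]
    exact Nat.lt_floor_add_one _
  have hNr : (1 : ℝ) ≤ N := by exact_mod_cast hN1
  have hNc : (N : ℝ) * cost g p ≤ 1 / 2 := by
    rw [le_div_iff₀ h2c] at hNle
    linarith
  have hN2 : 1 / (2 * (N : ℝ)) ≤ 2 * cost g p := by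
    rw [div_lt_iff₀ h2c] at hNlt
    rw [div_le_iff₀ (by linarith)]
    nlinarith
  have hK0 : (0 : ℝ) < K := by linarith
  rcases eq_or_lt_of_le hp with h0 | h0
  · obtain ⟨G, hG, hGc⟩ := zero_cover hF.2.1
    refine ⟨G, hG, ?_⟩
    rw [← h0, zero_div, hGc]
    rw [← h0] at h2c
    exact h2c.le
  have hF' : IsIncreasingFamily (Vale.Agent.P034.copies N F) := by
    refine ⟨?_, ?_, ?_⟩
    · obtain ⟨H, hH⟩ := hF.1
      exact ⟨H ×ˢ {⟨0, hN1⟩}, ⟨0, hN1⟩, by rw [Vale.Agent.P034.slice_prod]; exact hH⟩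
    · rintro ⟨i, hi⟩
      have e : Vale.Agent.P034.slice (∅ : Finset (X × Fin N)) i = ∅ := by
        ext x
        simp [Vale.Agent.P034.mem_slice]
      rw [e] at hi
      exact hF.2.1 hi
    · rintro H ⟨i, hi⟩ H' hHH'
      refine ⟨i, hF.2.2 _ hi _ (fun x hx => ?_)⟩
      exact Vale.Agent.P034.mem_slice.2 (hHH' (Vale.Agent.P034.mem_slice.1 hx))
  have hg0 : ∀ S, 0 ≤ g S := fun S => (hg.1 S).1
  have hmem : p ∈ {p : ℝ | 0 ≤ p ∧ p ≤ 1 ∧ ∃ g, IsFractionalCover g
      (Vale.Agent.P034.copies N F) ∧ cost g p ≤ 1 / 2} := by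
    refine ⟨hp, hp1, Vale.Agent.P034.cg N g, ⟨fun T => ?_, fun H hH => ?_⟩, ?_⟩
    · unfold Vale.Agent.P034.cg
      split_ifs
      · exact hg.1 _
      · exact ⟨le_rfl, zero_le_one⟩
    · exact Vale.Agent.P034.cg_cover hg0 hgE hg.2 H hH
    · exact (Vale.Agent.P034.cg_cost hg0 hp).trans hNc
  have hb : BddAbove {p : ℝ | 0 ≤ p ∧ p ≤ 1 ∧ ∃ g, IsFractionalCover g
      (Vale.Agent.P034.copies N F) ∧ cost g p ≤ 1 / 2} := ⟨1, fun r hr => hr.2.1⟩
  have hle : p ≤ K * q (Vale.Agent.P034.copies N F) := (le_csSup hb hmem).trans (hQ _ _ hF')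
  have hlt : p / (2 * K) < q (Vale.Agent.P034.copies N F) := by
    rw [div_lt_iff₀ (by linarith)]
    nlinarith
  obtain ⟨G0, hG0, hG0c⟩ := zero_cover hF'.2.1
  have hne0 : {p : ℝ | 0 ≤ p ∧ p ≤ 1 ∧ IsSmall p (Vale.Agent.P034.copies N F)}.Nonempty :=
    ⟨0, le_rfl, zero_le_one, G0, hG0, by rw [hG0c]; norm_num⟩
  obtain ⟨r, ⟨hr0, hr1, G, hG, hGc⟩, hr⟩ := exists_lt_of_lt_csSup hne0 hlt
  have hpos : 0 ≤ p / (2 * K) := by positivity
  obtain ⟨A, hA, hAc⟩ := Vale.Agent.P034.cheap_copy hN1 hpos G hG (by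
    refine le_trans (sum_le_sum (fun S _ => ?_)) hGc
    exact pow_le_pow_left₀ hpos hr.le _)
  exact ⟨A, hA, hAc.trans hN2⟩

end

/-- (1) `q_f(F) ≤ 4104 m q(F)` for every nonempty proper increasing `F` that is a union of `m`
members of the class `Composed` (compositions by AND and OR over disjoint ground sets of families
generated by tree-like families), the ground sets of the `m` members being arbitrary. (2) Members of
`Composed` satisfy the strong comparison with constant 4104, at all cost levels. (3) For every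
`K ≥ 1` the strong comparison with constant `K` is closed under AND and OR over disjoint ground
sets. (4) `q_f(F) = q(F)` for families of read-once monotone formulas. (5) If the conjecture holds
with constant `K`, then it holds at all cost levels: a fractional cover of cost `c ≤ 1/2` at `p`
with no weight on `∅` yields a cover of cost at most `2c` at `p/(2K)`. -/
theorem result :
    (∀ (X : Type) [Fintype X] [DecidableEq X] (m : ℕ), 1 ≤ m →
      ∀ (U : Fin m → Finset X) (F : Fin m → Set (Finset X)), (∀ j, Composed (U j) (F j)) →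
        IsIncreasingFamily (⋃ j, F j) → qf (⋃ j, F j) ≤ 4104 * m * q (⋃ j, F j)) ∧
    (∀ (X : Type) [Fintype X] [DecidableEq X] (U : Finset X) (F : Set (Finset X)),
      Composed U F → StrongComparison 4104 U F) ∧
    (∀ (X : Type) [Fintype X] [DecidableEq X] (K : ℝ), 1 ≤ K →
      ∀ (U V : Finset X) (F G : Set (Finset X)), Disjoint U V →
        StrongComparison K U F → StrongComparison K V G →
          StrongComparison K (U ∪ V) (F ∪ G) ∧ StrongComparison K (U ∪ V) (F ∩ G)) ∧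
    (∀ (X : Type) [Fintype X] [DecidableEq X] (U : Finset X) (F : Set (Finset X)),
      ReadOnceFamily U F → IsIncreasingFamily F → qf F = q F) ∧
    (∀ K : ℝ, 1 ≤ K →
      (∀ (X : Type) [Fintype X] [DecidableEq X] (F : Set (Finset X)), IsIncreasingFamily F →
        qf F ≤ K * q F) →
      ∀ (X : Type) [Fintype X] [DecidableEq X] (F : Set (Finset X)), IsIncreasingFamily F →
        ∀ (g : Finset X → ℝ) (p : ℝ), 0 ≤ p → p ≤ 1 → IsFractionalCover g F → g ∅ = 0 →
          0 < cost g p → cost g p ≤ 1 / 2 →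
            ∃ G : Finset (Finset X), (∀ H ∈ F, ∃ S ∈ G, S ⊆ H) ∧
              ∑ S ∈ G, (p / (2 * K)) ^ S.card ≤ 2 * cost g p) := by
  refine ⟨?_, ?_, ?_, ?_, fun K hK hQ X _ _ F hF g p hp hp1 hg hgE hc0 hc =>
    all_levels hK hQ hF hp hp1 hg hgE hc0 hc⟩
  · intro X _ _ m hm U F hF hinc
    have hmr : (1 : ℝ) ≤ m := by exact_mod_cast hm
    refine qf_le hinc (by linarith) ?_
    rintro p hp hp1 ⟨g, hg, hc⟩
    choose G hG1 hG2 hG3 using fun j => (composed_strong (hF j)).2 p hp hp1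
    refine ⟨univ.biUnion G, ?_, union_cost hm hp (by norm_num) G (fun j => ?_)⟩
    · intro H hH
      obtain ⟨j, hj⟩ := Set.mem_iUnion.1 hH
      obtain ⟨S, hS, hSH⟩ := hG2 j H hj
      exact ⟨S, mem_biUnion.2 ⟨j, mem_univ _, hS⟩, hSH⟩
    · exact (hG3 j g (fun S => (hg.1 S).1)
        (fun H hH => hg.2 H (Set.mem_iUnion.2 ⟨j, hH⟩))).trans hc
  · intro X _ _ U F h
    exact composed_strong h
  · intro X _ _ K hK U V F G hd hF hG
    rw [sc_iff] at hF hG
    exact ⟨sc_iff.2 (hF.or hK hd hG), sc_iff.2 (hF.and hK hd hG)⟩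
  · intro X _ _ U F h hinc
    refine le_antisymm ?_ q_le_qf
    have h1 := qf_le hinc (K := 1) le_rfl (by
      rintro p hp hp1 ⟨g, hg, hc⟩
      obtain ⟨G, _, hG2, hG3⟩ := (readOnce_strong h).2 p hp hp1
      exact ⟨G, hG2, (hG3 g (fun S => (hg.1 S).1) hg.2).trans hc⟩)
    rwa [one_mul] at h1

end Vale.Agent.Results.P034.Composition
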