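import Vale.Agent.P034.TreeRO

/-!
Integral versus fractional expectation thresholds: Talagrand's conjecture for fractional covers
given by (sums of m) read-once weights, and for supports that are unions of m tree-like families.
-/

namespace Vale.Agent.Results.P034.ReadOnce

open Finset Vale.Agent.P034

section

variable {X : Type} [Fintype X] [DecidableEq X]

/-- `F` is a nonempty proper increasing family: nonempty, closed under supersets, `∅ ∉ F`. -/
def IsIncreasingFamily (F : Set (Finset X)) : Prop :=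
  F.Nonempty ∧ ∅ ∉ F ∧ ∀ H ∈ F, ∀ H', H ⊆ H' → H' ∈ F

/-- `F` is `p`-small: some family `G` covers `F` and has cost at most `1/2` at `p`. -/
def IsSmall (p : ℝ) (F : Set (Finset X)) : Prop :=
  ∃ G : Finset (Finset X), (∀ H ∈ F, ∃ S ∈ G, S ⊆ H) ∧ ∑ S ∈ G, p ^ S.card ≤ 1 / 2

/-- `g : 2^X → [0,1]` is a fractional cover of `F`. -/
def IsFractionalCover (g : Finset X → ℝ) (F : Set (Finset X)) : Prop :=
  (∀ S, 0 ≤ g S ∧ g S ≤ 1) ∧ ∀ H ∈ F, 1 ≤ ∑ S ∈ H.powerset, g S

/-- The cost `w(g,p)` of a fractional cover at `p`. -/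
noncomputable def cost (g : Finset X → ℝ) (p : ℝ) : ℝ := ∑ S : Finset X, g S * p ^ S.card

/-- The integral expectation threshold `q(F)`. -/
noncomputable def q (F : Set (Finset X)) : ℝ := sSup {p : ℝ | 0 ≤ p ∧ p ≤ 1 ∧ IsSmall p F}

/-- A family of sets is tree-like if the traces of its members on each member form a chain. -/
def TreeLike (T : Set (Finset X)) : Prop :=
  ∀ A ∈ T, ∀ B ∈ T, ∀ C ∈ T, A ∩ B ⊆ C ∨ A ∩ C ⊆ B

/-- `g` is a constant weight on `∅` plus a sum of `m` weights of the class `ReadOnce m`. -/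
def IsSumOfReadOnce (m : ℕ) (g : Finset X → ℝ) : Prop :=
  ∃ (a : ℝ) (U : Fin m → Finset X) (w : Fin m → Finset X → ℝ), 0 ≤ a ∧
    (∀ j, Vale.Agent.P034.ReadOnce m (U j) (w j)) ∧ ∀ S, g S = atSet ∅ a S + ∑ j, w j S

lemma small_of_cover {m : ℕ} (hm : 1 ≤ m) {F : Set (Finset X)} {g : Finset X → ℝ} {p : ℝ}
    (hp : 0 ≤ p) (hp1 : p ≤ 1) (hg : IsFractionalCover g F) (hs : IsSumOfReadOnce m g)
    (hc : cost g p ≤ 1 / 2) :
    IsSmall (p / (33685632 * (m : ℝ) ^ 2)) F ∧ p ≤ 33685632 * (m : ℝ) ^ 2 * q F := by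
  obtain ⟨a, U, w, ha, hw, hgw⟩ := hs
  obtain ⟨G, hG, hGc⟩ := real_ro hm a ha U w hw g hgw p hp hc
  have hmr : (1 : ℝ) ≤ m := by exact_mod_cast hm
  have hK : (1 : ℝ) ≤ 33685632 * (m : ℝ) ^ 2 := by nlinarith
  have hK0 : (0 : ℝ) < 33685632 * (m : ℝ) ^ 2 := by linarith
  have hsm : IsSmall (p / (33685632 * (m : ℝ) ^ 2)) F := ⟨G, fun H hH => hG H (hg.2 H hH), hGc⟩
  refine ⟨hsm, ?_⟩
  have hmem : p / (33685632 * (m : ℝ) ^ 2) ∈ {p : ℝ | 0 ≤ p ∧ p ≤ 1 ∧ IsSmall p F} :=
    ⟨by positivity, (div_le_one hK0).2 (hp1.trans hK), hsm⟩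
  have hb : BddAbove {p : ℝ | 0 ≤ p ∧ p ≤ 1 ∧ IsSmall p F} := ⟨1, fun r hr => hr.2.1⟩
  have h := le_csSup hb hmem
  rw [div_le_iff₀ hK0, mul_comm] at h
  exact h

end

/-- (1) If `F` has a fractional cover of cost at most `1/2` at `p` which is a constant on `∅` plus
a sum of `m` weights of the class `ReadOnce m` (read-once formulas for `m = 1`), then `F` is
`p/(K m²)`-small and `p ≤ K m² q(F)`, `K = 33685632`. (2) For all `m ≥ 1` the class contains every
nonnegative weight with tree-like support. (3) The conclusion of (1) holds when the support of the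
fractional cover is contained in a union of `m` tree-like families. -/
theorem result :
    (∀ (X : Type) [Fintype X] [DecidableEq X] (F : Set (Finset X)), IsIncreasingFamily F →
      ∀ (m : ℕ), 1 ≤ m → ∀ (g : Finset X → ℝ) (p : ℝ), 0 ≤ p → p ≤ 1 → IsFractionalCover g F →
        IsSumOfReadOnce m g → cost g p ≤ 1 / 2 →
          IsSmall (p / (33685632 * (m : ℝ) ^ 2)) F ∧ p ≤ 33685632 * (m : ℝ) ^ 2 * q F) ∧
    (∀ (X : Type) [Fintype X] [DecidableEq X] (m : ℕ), 1 ≤ m → ∀ g : Finset X → ℝ,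
      (∀ S, 0 ≤ g S) → TreeLike {S | g S ≠ 0} →
        ∃ w, Vale.Agent.P034.ReadOnce m univ w ∧ ∀ S, g S = atSet ∅ (g ∅) S + w S) ∧
    (∀ (X : Type) [Fintype X] [DecidableEq X] (F : Set (Finset X)), IsIncreasingFamily F →
      ∀ (m : ℕ), 1 ≤ m → ∀ (g : Finset X → ℝ) (p : ℝ), 0 ≤ p → p ≤ 1 → IsFractionalCover g F →
        ∀ T : Fin m → Set (Finset X), (∀ j, TreeLike (T j)) →
        (∀ S, g S ≠ 0 → ∃ j, S ∈ T j) → cost g p ≤ 1 / 2 →
          IsSmall (p / (33685632 * (m : ℝ) ^ 2)) F ∧ p ≤ 33685632 * (m : ℝ) ^ 2 * q F) := by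
  refine ⟨?_, ?_, ?_⟩
  · intro X _ _ F _ m hm g p hp hp1 hg hs hc
    exact small_of_cover hm hp hp1 hg hs hc
  · intro X _ _ m hm g hg hT
    exact tree_ro hm univ g hg (fun A B C hA hB hC => hT A hA B hB C hC)
      (fun S _ => subset_univ S)
  · intro X _ _ F _ m hm g p hp hp1 hg T hT hsupp hc
    classical
    have hj : ∀ j : Fin m, ∃ w, Vale.Agent.P034.ReadOnce m univ w ∧
        ∀ S, (if S ∈ T j ∧ ∀ i < j, S ∉ T i then g S else 0) =
          atSet ∅ (if ∅ ∈ T j ∧ ∀ i < j, ∅ ∉ T i then g ∅ else 0) S + w S := by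
      intro j
      refine tree_ro hm univ (fun S => if S ∈ T j ∧ ∀ i < j, S ∉ T i then g S else 0) ?_ ?_
        (fun S _ => subset_univ S)
      · intro S
        beta_reduce
        split_ifs
        · exact (hg.1 S).1
        · exact le_rfl
      · intro A B C hA hB hC
        have h : ∀ S : Finset X, (if S ∈ T j ∧ ∀ i < j, S ∉ T i then g S else 0) ≠ 0 →
            S ∈ T j := by
          intro S hS
          by_contra hn
          apply hS
          rw [if_neg]
          exact fun h => hn h.1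
        exact hT j A (h A hA) B (h B hB) C (h C hC)
    choose w hw hgw using hj
    have hsumg : ∀ S : Finset X, ∑ j : Fin m, (if S ∈ T j ∧ ∀ i < j, S ∉ T i then g S else 0)
        = g S := by
      intro S
      by_cases h0 : g S = 0
      · rw [h0]
        simp
      · have hne : (univ.filter (fun j : Fin m => S ∈ T j)).Nonempty := by
          obtain ⟨j, hj⟩ := hsupp S h0
          exact ⟨j, by simp [hj]⟩
        have hmin := min'_mem _ hne
        rw [mem_filter] at hmin
        rw [sum_eq_single ((univ.filter (fun j : Fin m => S ∈ T j)).min' hne)]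
        · rw [if_pos]
          refine ⟨hmin.2, fun i hi hiT => ?_⟩
          exact absurd (min'_le _ i (by simp [hiT])) (not_le.2 hi)
        · intro b _ hb
          rw [if_neg]
          rintro ⟨hb1, hb2⟩
          have hle := min'_le (univ.filter (fun j : Fin m => S ∈ T j)) b (by simp [hb1])
          exact hb2 _ (lt_of_le_of_ne hle (Ne.symm hb)) hmin.2
        · intro h
          exact absurd (mem_univ _) h
    refine small_of_cover hm hp hp1 hg ⟨∑ j : Fin m,
      (if (∅ : Finset X) ∈ T j ∧ ∀ i < j, (∅ : Finset X) ∉ T i then g ∅ else 0), fun _ => univ,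
      w, ?_, hw, ?_⟩ hc
    · rw [hsumg ∅]
      exact (hg.1 ∅).1
    · intro S
      rw [← hsumg S, sum_congr rfl (fun j _ => hgw j S), sum_add_distrib]
      congr 1
      unfold atSet
      split_ifs with hS
      · rfl
      · simp

end Vale.Agent.Results.P034.ReadOnce
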