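import Vale.Agent.P034.Fam

/-!
Integral versus fractional expectation thresholds: Talagrand's conjecture for all families
generated by tree-like families.
-/

namespace Vale.Agent.Results.P034.TreeFamilies

open Finset

section

variable {X : Type} [Fintype X] [DecidableEq X]

/-- `F` is a nonempty proper increasing family: nonempty, closed under supersets, `∅ ∉ F`. -/
def IsIncreasingFamily (F : Set (Finset X)) : Prop :=
  F.Nonempty ∧ ∅ ∉ F ∧ ∀ H ∈ F, ∀ H', H ⊆ H' → H' ∈ F

/-- `F` is `p`-small: some family `G` covers `F` and has cost at most `1/2` at `p`. -/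
def IsSmall (p : ℝ) (F : Set (Finset X)) : Prop :=
  ∃ G : Finset (Finset X), (∀ H ∈ F, ∃ S ∈ G, S ⊆ H) ∧ ∑ S ∈ G, p ^ S.card ≤ 1 / 2

/-- `g : 2^X → [0,1]` is a fractional cover of `F`. -/
def IsFractionalCover (g : Finset X → ℝ) (F : Set (Finset X)) : Prop :=
  (∀ S, 0 ≤ g S ∧ g S ≤ 1) ∧ ∀ H ∈ F, 1 ≤ ∑ S ∈ H.powerset, g S

/-- The cost `w(g,p)` of a fractional cover at `p`. -/
noncomputable def cost (g : Finset X → ℝ) (p : ℝ) : ℝ := ∑ S : Finset X, g S * p ^ S.card

/-- The integral expectation threshold `q(F)`. -/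
noncomputable def q (F : Set (Finset X)) : ℝ := sSup {p : ℝ | 0 ≤ p ∧ p ≤ 1 ∧ IsSmall p F}

/-- The fractional expectation threshold `q_f(F)`. -/
noncomputable def qf (F : Set (Finset X)) : ℝ :=
  sSup {p : ℝ | 0 ≤ p ∧ p ≤ 1 ∧ ∃ g, IsFractionalCover g F ∧ cost g p ≤ 1 / 2}

/-- A family of sets is tree-like if the traces of its members on each member form a chain. -/
def TreeLike (T : Set (Finset X)) : Prop :=
  ∀ A ∈ T, ∀ B ∈ T, ∀ C ∈ T, A ∩ B ⊆ C ∨ A ∩ C ⊆ B

/-- The increasing family generated by `T`. -/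
def upClosure (T : Set (Finset X)) : Set (Finset X) := {H | ∃ A ∈ T, A ⊆ H}

end

/-- (1) For every `m ≥ 1` and every nonempty proper increasing family `F` generated by a union of
`m` tree-like families, `q_f(F) ≤ 4104 m q(F)`; moreover every fractional cover of `F` of cost at
most `1/2` at `p` yields that `F` is `p/(4104 m)`-small. In particular (2) `q_f(F) ≤ 4104 q(F)` when
`F` is generated by one tree-like family, (3) for instance when `F` is the family of all sets
containing, for some `x` in a set `L`, all predecessors of `x` in a finite order in which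
predecessors of an element form a chain (root paths of a rooted forest). -/
theorem result :
    (∀ (X : Type) [Fintype X] [DecidableEq X] (m : ℕ), 1 ≤ m →
      ∀ T : Fin m → Set (Finset X), (∀ j, TreeLike (T j)) →
        IsIncreasingFamily (upClosure (⋃ j, T j)) →
          qf (upClosure (⋃ j, T j)) ≤ 4104 * m * q (upClosure (⋃ j, T j)) ∧
          ∀ p : ℝ, 0 ≤ p → p ≤ 1 →
            (∃ g, IsFractionalCover g (upClosure (⋃ j, T j)) ∧ cost g p ≤ 1 / 2) →
              IsSmall (p / (4104 * m)) (upClosure (⋃ j, T j))) ∧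
    (∀ (X : Type) [Fintype X] [DecidableEq X] (T : Set (Finset X)), TreeLike T →
      IsIncreasingFamily (upClosure T) → qf (upClosure T) ≤ 4104 * q (upClosure T)) ∧
    (∀ (X : Type) [Fintype X] [DecidableEq X] [PartialOrder X],
      (∀ x y z : X, y ≤ x → z ≤ x → y ≤ z ∨ z ≤ y) → ∀ L : Set X, L.Nonempty →
        qf {H : Finset X | ∃ x ∈ L, ∀ y, y ≤ x → y ∈ H} ≤
          4104 * q {H : Finset X | ∃ x ∈ L, ∀ y, y ≤ x → y ∈ H}) := by
  have h1 : ∀ (X : Type) [Fintype X] [DecidableEq X] (m : ℕ), 1 ≤ m →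
      ∀ T : Fin m → Set (Finset X), (∀ j, TreeLike (T j)) →
        IsIncreasingFamily (upClosure (⋃ j, T j)) →
          qf (upClosure (⋃ j, T j)) ≤ 4104 * m * q (upClosure (⋃ j, T j)) ∧
          ∀ p : ℝ, 0 ≤ p → p ≤ 1 →
            (∃ g, IsFractionalCover g (upClosure (⋃ j, T j)) ∧ cost g p ≤ 1 / 2) →
              IsSmall (p / (4104 * m)) (upClosure (⋃ j, T j)) := by
    intro X _ _ m hm T hT hF
    have hmr : (1 : ℝ) ≤ m := by exact_mod_cast hm
    have hK0 : (0 : ℝ) < 4104 * m := by linarith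
    have hK1 : (1 : ℝ) ≤ 4104 * m := by linarith
    have hsmall : ∀ p : ℝ, 0 ≤ p → p ≤ 1 →
            (∃ g, IsFractionalCover g (upClosure (⋃ j, T j)) ∧ cost g p ≤ 1 / 2) →
              IsSmall (p / (4104 * m)) (upClosure (⋃ j, T j)) := by
      rintro p hp hp1 ⟨g, hg, hc⟩
      obtain ⟨G, hG, hGc⟩ := Vale.Agent.P034.fam_main hm T
        (fun j A hA B hB C hC => hT j A hA B hB C hC) g (fun S => (hg.1 S).1)
        (fun j A hA => hg.2 A ⟨A, Set.mem_iUnion.2 ⟨j, hA⟩, Subset.rfl⟩) p hp hp1 hc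
      refine ⟨G, ?_, hGc⟩
      rintro H ⟨A, hA, hAH⟩
      obtain ⟨j, hj⟩ := Set.mem_iUnion.1 hA
      obtain ⟨S, hS, hSA⟩ := hG j A hj
      exact ⟨S, hS, hSA.trans hAH⟩
    refine ⟨?_, hsmall⟩
    have hb : BddAbove {p : ℝ | 0 ≤ p ∧ p ≤ 1 ∧ IsSmall p (upClosure (⋃ j, T j))} :=
      ⟨1, fun r hr => hr.2.1⟩
    unfold qf
    refine csSup_le ⟨0, le_rfl, zero_le_one, fun S => if S.card = 0 then 0 else 1, ?_, ?_⟩ ?_
    · refine ⟨fun S => ?_, fun H hH => ?_⟩
      · beta_reduce
        split_ifs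
        · exact ⟨le_rfl, zero_le_one⟩
        · exact ⟨zero_le_one, le_rfl⟩
      · have hHn : H.card ≠ 0 := by
          intro h0
          rw [card_eq_zero] at h0
          rw [h0] at hH
          exact hF.2.1 hH
        have h2 := single_le_sum (f := fun S : Finset X => if S.card = 0 then (0 : ℝ) else 1)
          (s := H.powerset) (fun S _ => by split_ifs <;> norm_num) (mem_powerset_self H)
        simp only [if_neg hHn] at h2
        exact h2
    · unfold cost
      rw [sum_eq_zero]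
      · norm_num
      · intro S _
        beta_reduce
        by_cases h : S.card = 0
        · rw [if_pos h, zero_mul]
        · rw [zero_pow h, mul_zero]
    · rintro p ⟨hp, hp1, hg⟩
      have hs := hsmall p hp hp1 hg
      have hmem : p / (4104 * m) ∈
          {p : ℝ | 0 ≤ p ∧ p ≤ 1 ∧ IsSmall p (upClosure (⋃ j, T j))} :=
        ⟨by positivity, (div_le_one hK0).2 (hp1.trans hK1), hs⟩
      have h := le_csSup hb hmem
      rw [div_le_iff₀ hK0, mul_comm] at h
      exact h
  have h2 : ∀ (X : Type) [Fintype X] [DecidableEq X] (T : Set (Finset X)), TreeLike T →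
      IsIncreasingFamily (upClosure T) → qf (upClosure T) ≤ 4104 * q (upClosure T) := by
    intro X _ _ T hT hF
    have e : (⋃ _j : Fin 1, T) = T := Set.iUnion_const T
    have h := (h1 X 1 le_rfl (fun _ => T) (fun _ => hT) (by rw [e]; exact hF)).1
    rw [e] at h
    simpa using h
  refine ⟨h1, h2, ?_⟩
  intro X _ _ _ hX L hL
  classical
  have e : {H : Finset X | ∃ x ∈ L, ∀ y, y ≤ x → y ∈ H} =
      upClosure {S : Finset X | ∃ x ∈ L, ∀ y, y ∈ S ↔ y ≤ x} := by
    ext H
    constructor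
    · rintro ⟨x, hx, h⟩
      exact ⟨univ.filter (fun y => y ≤ x), ⟨x, hx, fun y => by simp⟩,
        fun y hy => h y (by simpa using hy)⟩
    · rintro ⟨A, ⟨x, hx, hA⟩, hAH⟩
      exact ⟨x, hx, fun y hy => hAH ((hA y).2 hy)⟩
  rw [e]
  refine h2 X _ ?_ ?_
  · rintro A ⟨a, _, ha⟩ B ⟨b, _, hb⟩ C ⟨c, _, hcc⟩
    by_contra hcon
    push Not at hcon
    obtain ⟨n1, n2⟩ := hcon
    obtain ⟨y, hy, hyC⟩ := not_subset.mp n1
    obtain ⟨z, hz, hzB⟩ := not_subset.mp n2
    rw [mem_inter] at hy hz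
    have hya := (ha y).mp hy.1
    have hza := (ha z).mp hz.1
    have hyb := (hb y).mp hy.2
    have hzc := (hcc z).mp hz.2
    rcases hX a y z hya hza with h | h
    · exact hyC ((hcc y).mpr (h.trans hzc))
    · exact hzB ((hb z).mpr (h.trans hyb))
  · rw [← e]
    obtain ⟨x, hx⟩ := hL
    refine ⟨⟨univ, x, hx, fun y _ => mem_univ y⟩, ?_, ?_⟩
    · rintro ⟨y, _, hy⟩
      exact notMem_empty y (hy y le_rfl)
    · rintro H ⟨y, hy, h⟩ H' hHH'
      exact ⟨y, hy, fun z hz => hHH' (h z hz)⟩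

end Vale.Agent.Results.P034.TreeFamilies
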