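import Vale.Agent.P034.Wrap

/-!
Integral versus fractional expectation thresholds: Talagrand's conjecture for fractional covers
with tree-like support.
-/

namespace Vale.Agent.Results.P034.TreeLike

open Finset

section

variable {X : Type} [Fintype X] [DecidableEq X]

/-- `F` is a nonempty proper increasing family: nonempty, closed under supersets, `∅ ∉ F`. -/
def IsIncreasingFamily (F : Set (Finset X)) : Prop :=
  F.Nonempty ∧ ∅ ∉ F ∧ ∀ H ∈ F, ∀ H', H ⊆ H' → H' ∈ F

/-- `F` is `p`-small: some family `G` covers `F` and has cost at most `1/2` at `p`. -/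
def IsSmall (p : ℝ) (F : Set (Finset X)) : Prop :=
  ∃ G : Finset (Finset X), (∀ H ∈ F, ∃ S ∈ G, S ⊆ H) ∧ ∑ S ∈ G, p ^ S.card ≤ 1 / 2

/-- `g : 2^X → [0,1]` is a fractional cover of `F`. -/
def IsFractionalCover (g : Finset X → ℝ) (F : Set (Finset X)) : Prop :=
  (∀ S, 0 ≤ g S ∧ g S ≤ 1) ∧ ∀ H ∈ F, 1 ≤ ∑ S ∈ H.powerset, g S

/-- The cost `w(g,p)` of a fractional cover at `p`. -/
noncomputable def cost (g : Finset X → ℝ) (p : ℝ) : ℝ := ∑ S : Finset X, g S * p ^ S.card

/-- The integral expectation threshold `q(F)`. -/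
noncomputable def q (F : Set (Finset X)) : ℝ := sSup {p : ℝ | 0 ≤ p ∧ p ≤ 1 ∧ IsSmall p F}

/-- A family of sets is tree-like if the traces of its members on each member form a chain. -/
def TreeLike (T : Set (Finset X)) : Prop :=
  ∀ A ∈ T, ∀ B ∈ T, ∀ C ∈ T, A ∩ B ⊆ C ∨ A ∩ C ⊆ B

end

/-- (1) If `F` has a fractional cover of cost at most `1/2` at `p` whose support is tree-like, then
`F` is `p/4104`-small, and `p ≤ 4104 q(F)`. (2) The root paths of a rooted forest (sets of
all predecessors of a vertex in a finite order in which predecessors form chains), together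
with the empty set, are tree-like. -/
theorem result :
    (∀ (X : Type) [Fintype X] [DecidableEq X] (F : Set (Finset X)), IsIncreasingFamily F →
      ∀ (g : Finset X → ℝ) (p : ℝ), 0 ≤ p → p ≤ 1 → IsFractionalCover g F →
        TreeLike {S | g S ≠ 0} → cost g p ≤ 1 / 2 →
          IsSmall (p / 4104) F ∧ p ≤ 4104 * q F) ∧
    (∀ (X : Type) [Fintype X] [DecidableEq X] [PartialOrder X],
      (∀ x y z : X, y ≤ x → z ≤ x → y ≤ z ∨ z ≤ y) →
        TreeLike {S : Finset X | S = ∅ ∨ ∃ x, ∀ y, y ∈ S ↔ y ≤ x}) := by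
  constructor
  · intro X _ _ F hF g p hp hp1 hg hT hc
    obtain ⟨G, hG, hGc⟩ := Vale.Agent.P034.real_version g (fun S => (hg.1 S).1)
      (fun A B C hA hB hC => hT A hA B hB C hC) p hp hc
    have hs : IsSmall (p / 4104) F := ⟨G, fun H hH => hG H (hg.2 H hH), hGc⟩
    refine ⟨hs, ?_⟩
    have hmem : p / 4104 ∈ {p : ℝ | 0 ≤ p ∧ p ≤ 1 ∧ IsSmall p F} :=
      ⟨by positivity, by linarith, hs⟩
    have hb : BddAbove {p : ℝ | 0 ≤ p ∧ p ≤ 1 ∧ IsSmall p F} := ⟨1, fun r hr => hr.2.1⟩
    have := le_csSup hb hmem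
    unfold q
    linarith
  · intro X _ _ _ hX A hA B hB C hC
    rcases hA with rfl | ⟨a, ha⟩
    · left; simp
    rcases hB with rfl | ⟨b, hb⟩
    · left; simp
    rcases hC with rfl | ⟨c, hcc⟩
    · right; simp
    by_contra hcon
    push Not at hcon
    obtain ⟨h1, h2⟩ := hcon
    obtain ⟨y, hy, hyC⟩ := not_subset.mp h1
    obtain ⟨z, hz, hzB⟩ := not_subset.mp h2
    rw [mem_inter] at hy hz
    have hya := (ha y).mp hy.1
    have hza := (ha z).mp hz.1
    have hyb := (hb y).mp hy.2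
    have hzc := (hcc z).mp hz.2
    rcases hX a y z hya hza with h | h
    · exact hyC ((hcc y).mpr (h.trans hzc))
    · exact hzB ((hb z).mpr (h.trans hyb))

end Vale.Agent.Results.P034.TreeLike
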